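import Vale.Agent.P201.Main

theorem Vale.Agent.Results.P201.Counterexample.result :
    (¬ ∀ (K : Type) [Field K] (G : Type) [Group G], (∀ g : G, IsOfFinOrder g → g = 1) →
      ∀ α β : MonoidAlgebra K G, α * β = 0 → α = 0 ∨ β = 0) ∧
    ∃ (G : Type) (_ : Group G), Group.IsFinitelyPresented G ∧
      (∀ g : G, IsOfFinOrder g → g = 1) ∧
      ∃ α β : MonoidAlgebra (ZMod 2) G, α ≠ 0 ∧ β ≠ 0 ∧ α * β = 0 := by
  refine ⟨fun h => ?_, Vale.Agent.P201.main⟩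
  obtain ⟨G, _, -, h1, α, β, h2, h3, h4⟩ := Vale.Agent.P201.main
  exact (h (ZMod 2) G h1 α β h4).elim h2 h3
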